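import Vale.Agent.P038.H402.Rot

/-! P038, helper402: block F (`StFinal`). -/

namespace Vale.Agent.P038.H402

open Finset H465
attribute [local instance] Classical.propDecidable

variable {V : Type} [Fintype V]

theorem self_cl {D : V → V → Prop} {S : Finset V} : S ⊆ cl D S := by
  intro x hx
  exact mem_cl.2 ⟨x, hx, Or.inl rfl⟩

theorem h_of_closed {D : V → V → Prop} {X : Finset V} (hX : cl D X ⊆ X) : H465.h D X = 0 := by
  have h1 : cl D X = X := le_antisymm hX self_cl
  unfold H465.h
  rw [h1, h1]
  ring

theorem int_cl_int {D : V → V → Prop} {S : Finset V} :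
    H465.int D (cl D (H465.int D S)) = H465.int D S := by
  ext x
  constructor
  · intro hx
    rw [mem_int] at hx ⊢
    intro y hy
    have h1 := hx y hy
    rw [mem_cl] at h1
    obtain ⟨z, hz, hzy⟩ := h1
    exact mem_int.1 hz y hzy
  · intro hx
    rw [mem_int]
    intro y hy
    exact mem_cl.2 ⟨x, hx, hy⟩

theorem cl_int_sub {D : V → V → Prop} {S : Finset V} : cl D (H465.int D S) ⊆ S := by
  intro x hx
  rw [mem_cl] at hx
  obtain ⟨z, hz, hzy⟩ := hx
  exact mem_int.1 hz x hzy

theorem sub_er_cm {D : V → V → Prop} {S : Finset V} : S ⊆ er D (cm D S) := by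
  intro x hx
  rw [mem_er]
  intro y hy
  exact mem_cm.2 ⟨x, hx, hy⟩

theorem cm_er_cm {D : V → V → Prop} {S : Finset V} : cm D (er D (cm D S)) = cm D S := by
  ext x
  constructor
  · intro hx
    rw [mem_cm] at hx
    obtain ⟨y, hy, hxy⟩ := hx
    exact mem_er.1 hy x hxy
  · intro hx
    rw [mem_cm] at hx ⊢
    obtain ⟨y, hy, hxy⟩ := hx
    exact ⟨y, sub_er_cm hy, hxy⟩

theorem card_compl_Z (S : Finset V) : (((univ \ S).card : ℤ)) = Fintype.card V - S.card := by
  have h := Finset.card_sdiff_add_card_eq_card (Finset.subset_univ S)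
  rw [Finset.card_univ] at h
  omega

theorem cl_compl {D : V → V → Prop} (S : Finset V) : cl D (univ \ S) = univ \ er D S := by
  ext x
  rw [mem_cl, Finset.mem_sdiff, mem_er]
  constructor
  · rintro ⟨y, hy, hR⟩
    refine ⟨Finset.mem_univ _, fun h => (Finset.mem_sdiff.1 hy).2 (h y hR)⟩
  · rintro ⟨_, h⟩
    push Not at h
    obtain ⟨y, hR, hy⟩ := h
    exact ⟨y, Finset.mem_sdiff.2 ⟨Finset.mem_univ _, hy⟩, hR⟩

/-- no nonempty out-closed set can be avoided -/
theorem exists_escape (D : V → V → Prop) (hout : ∀ v, ∃ u, D v u) [Nonempty V]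
    (X : V → Finset V) (hself : ∀ a, a ∈ X a) (hin : ∀ y z, D y z → y ∉ X z) :
    ∃ a, ¬ cl D (X a) ⊆ X a := by
  classical
  by_contra hcon
  push Not at hcon
  have key : ∀ n : ℕ, ∀ C : Finset V, C.card = n → C.Nonempty → cl D C ⊆ C → False := by
    intro n
    induction n using Nat.strong_induction_on with
    | _ n ih =>
      intro C hC hne hcl
      obtain ⟨c0, hc0⟩ := hne
      obtain ⟨c, hc⟩ := hout c0
      have hcC : c ∈ C := hcl (mem_cl.2 ⟨c0, hc0, Or.inr hc⟩)
      have hss : C ∩ X c ⊂ C := by
        refine ⟨Finset.inter_subset_left, fun h => ?_⟩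
        exact hin c0 c hc (Finset.mem_inter.1 (h hc0)).2
      refine ih (C ∩ X c).card (by rw [← hC]; exact Finset.card_lt_card hss) (C ∩ X c) rfl
        ⟨c, Finset.mem_inter.2 ⟨hcC, hself c⟩⟩ ?_
      intro y hy
      rw [mem_cl] at hy
      obtain ⟨x, hx, hR⟩ := hy
      rw [Finset.mem_inter] at hx ⊢
      exact ⟨hcl (mem_cl.2 ⟨x, hx.1, hR⟩), hcon c (mem_cl.2 ⟨x, hx.2, hR⟩)⟩
  obtain ⟨v⟩ := ‹Nonempty V›
  exact key _ Finset.univ rfl ⟨v, Finset.mem_univ v⟩ (Finset.subset_univ _)

/-- block F -/
theorem final : StFinal V := by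
  classical
  intro D B U hOri hF hmin hmin' hG hout hne
  have hh0 : ∀ X : Finset V, 0 ≤ H465.h D X := by
    intro X
    by_cases hX : cl D X ⊆ X
    · rw [h_of_closed hX]
    · exact (hG X hX).le
  -- basic facts on columns
  have hb0 : ∀ b, b ∉ cm D (U b \ {b}) := by
    intro b hb
    rw [mem_cm] at hb
    obtain ⟨y, hy, hR⟩ := hb
    rw [Finset.mem_sdiff, Finset.mem_singleton] at hy
    rcases hR with h | h
    · exact hy.2 h.symm
    · exact hF.rev b y h hy.1
  have hb1 : ∀ b, b ∉ er D (cm D (U b \ {b})) := by
    intro b hb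
    exact hb0 b (mem_er.1 hb b (Or.inl rfl))
  have hb2 : ∀ b z, D b z → z ∉ er D (cm D (U b \ {b})) := by
    intro b z hbz hz
    exact hb0 b (mem_er.1 hz b (Or.inr hbz))
  have hb3 : ∀ b x, D x b → x ∈ U b \ {b} := by
    intro b x hxb
    rw [Finset.mem_sdiff, Finset.mem_singleton]
    refine ⟨hF.le x b (hF.refl x b (Or.inr hxb)), ?_⟩
    rintro rfl
    exact hOri.1 _ hxb
  have hb4 : ∀ b, U b \ {b} ⊆ cm D (U b \ {b}) := by
    intro b x hx
    exact mem_cm.2 ⟨x, hx, Or.inl rfl⟩
  -- the new pair
  set L : V → Finset V := fun a => cl D (H465.int D (B a)) with hL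
  set M : V → Finset V := fun b => insert b (er D (cm D (U b \ {b}))) with hM
  have hFM : Feas D L M := by
    refine ⟨?_, ?_, ?_⟩
    · intro a x hR
      exact mem_cl.2 ⟨a, mem_int.2 (fun y hy => hF.refl a y hy), hR⟩
    · intro a x hx
      have h1 : x ∈ B a := cl_int_sub hx
      have h2 := hF.le a x h1
      by_cases hax : a = x
      · subst hax; exact Finset.mem_insert_self _ _
      · exact Finset.mem_insert_of_mem (sub_er_cm
          (Finset.mem_sdiff.2 ⟨h2, by rw [Finset.mem_singleton]; exact hax⟩))
    · intro y z hyz hz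
      rw [hM] at hz
      simp only [Finset.mem_insert] at hz
      rcases hz with rfl | hz
      · exact hOri.1 _ hyz
      · exact hb2 y z hyz hz
  have hcM : ∀ b, ((M b).card : ℤ) = (er D (cm D (U b \ {b}))).card + 1 := by
    intro b
    rw [hM]
    simp only
    rw [Finset.card_insert_of_notMem (hb1 b)]
    push_cast; ring
  have hcmM : ∀ b, ((cm D (M b)).card : ℤ) = (cm D (U b \ {b})).card + 1 := by
    intro b
    have : cm D (M b) = insert b (cm D (U b \ {b})) := by
      ext x
      rw [mem_cm, Finset.mem_insert]
      constructor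
      · rintro ⟨y, hy, hR⟩
        rw [hM] at hy
        simp only [Finset.mem_insert] at hy
        rcases hy with rfl | hy
        · rcases hR with h | h
          · exact Or.inl h
          · exact Or.inr (hb4 _ (hb3 _ x h))
        · right
          exact mem_er.1 hy x hR
      · rintro (rfl | hx)
        · exact ⟨x, Finset.mem_insert_self _ _, Or.inl rfl⟩
        · rw [← cm_er_cm, mem_cm] at hx
          obtain ⟨y, hy, hR⟩ := hx
          exact ⟨y, Finset.mem_insert_of_mem hy, hR⟩
    rw [this, Finset.card_insert_of_notMem (hb0 b)]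
    push_cast; ring
  have herM : ∀ b, ((er D (M b)).card : ℤ) = (er D (er D (cm D (U b \ {b})))).card + 1 := by
    intro b
    have : er D (M b) = insert b (er D (er D (cm D (U b \ {b})))) := by
      ext x
      rw [mem_er, Finset.mem_insert]
      constructor
      · intro hx
        by_cases hxb : x = b
        · exact Or.inl hxb
        · right
          rw [mem_er]
          intro y hy
          have h1 := hx y hy
          rw [hM] at h1
          simp only [Finset.mem_insert] at h1
          rcases h1 with rfl | h1
          · exfalso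
            -- `y = b`, `b → x`
            rcases hy with h | h
            · exact hxb h.symm
            · have h2 := hx x (Or.inl rfl)
              rw [hM] at h2
              simp only [Finset.mem_insert] at h2
              rcases h2 with h2 | h2
              · exact hxb h2
              · exact hb2 y x h h2
          · exact h1
      · rintro (rfl | hx)
        · intro y hy
          rcases hy with rfl | h
          · exact Finset.mem_insert_self _ _
          · exact Finset.mem_insert_of_mem (sub_er_cm (hb3 x y h))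
        · intro y hy
          exact Finset.mem_insert_of_mem (mem_er.1 hx y hy)
    rw [this, Finset.card_insert_of_notMem]
    · push_cast; ring
    · intro hb
      exact hb1 b (mem_er.1 hb b (Or.inl rfl))
  -- energies
  have e1 : en D L M ≤ en D B U := by
    unfold en
    apply add_le_add
    · apply Finset.sum_le_sum
      intro a _
      have h1 : H465.int D (L a) = H465.int D (B a) := int_cl_int
      have h2 : ((L a).card : ℤ) ≤ (B a).card := by
        exact_mod_cast Finset.card_le_card (cl_int_sub : L a ⊆ B a)
      rw [h1]; linarith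
    · apply Finset.sum_le_sum
      intro b _
      rw [hcmM, hcM]
      have hbU : b ∈ U b := hF.le b b (hF.refl b b (Or.inl rfl))
      have hcU : ((U b).card : ℤ) = (U b \ {b}).card + 1 := by
        rw [Finset.card_sdiff_of_subset (Finset.singleton_subset_iff.2 hbU), Finset.card_singleton]
        have : 1 ≤ (U b).card := Finset.card_pos.2 ⟨b, hbU⟩
        omega
      have hcm : ((cm D (U b)).card : ℤ) = (cm D (U b \ {b})).card + 1 := by
        have : cm D (U b) = insert b (cm D (U b \ {b})) := by
          ext x
          rw [mem_cm, Finset.mem_insert]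
          constructor
          · rintro ⟨y, hy, hR⟩
            by_cases hyb : y = b
            · subst hyb
              rcases hR with h | h
              · exact Or.inl h
              · exact Or.inr (hb4 _ (hb3 _ x h))
            · right
              exact mem_cm.2 ⟨y, Finset.mem_sdiff.2 ⟨hy, by rw [Finset.mem_singleton]; exact hyb⟩, hR⟩
          · rintro (rfl | hx)
            · exact ⟨x, hbU, Or.inl rfl⟩
            · rw [mem_cm] at hx
              obtain ⟨y, hy, hR⟩ := hx
              exact ⟨y, (Finset.mem_sdiff.1 hy).1, hR⟩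
        rw [this, Finset.card_insert_of_notMem (hb0 b)]
        push_cast; ring
      have h3 : ((U b \ {b}).card : ℤ) ≤ (er D (cm D (U b \ {b}))).card := by
        exact_mod_cast Finset.card_le_card sub_er_cm
      rw [hcU, hcm]
      linarith
  have e2 : en D L M - en' D L M =
      ∑ a, H465.h D (H465.int D (B a)) + ∑ b, H465.h D (univ \ cm D (U b \ {b})) := by
    unfold en en'
    have r1 : ∀ a, H465.h D (H465.int D (B a)) =
        (((L a).card : ℤ) - (H465.int D (L a)).card) - (((cl D (L a)).card : ℤ) - (L a).card) := by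
      intro a
      have h1 : H465.int D (L a) = H465.int D (B a) := int_cl_int
      rw [h1]
      unfold H465.h
      simp only [hL]
      ring
    have r2 : ∀ b, H465.h D (univ \ cm D (U b \ {b})) =
        (((cm D (M b)).card : ℤ) - (M b).card) - (((M b).card : ℤ) - (er D (M b)).card) := by
      intro b
      unfold H465.h
      rw [cl_compl, cl_compl, card_compl_Z, card_compl_Z, card_compl_Z, hcmM, hcM, herM]
      ring
    simp only [r1, r2, Finset.sum_sub_distrib]
    ring
  have e3 := hmin' L M hFM
  -- one term is positive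
  obtain ⟨a, ha⟩ := exists_escape D hout (fun a => H465.int D (B a))
    (fun a => mem_int.2 (fun y hy => hF.refl a y hy))
    (by
      intro y z hyz hy
      have h1 : y ∈ B z := (mem_int.1 hy) y (Or.inl rfl)
      exact hF.rev y z hyz (hF.le z y h1))
  have e4 : 0 < ∑ a, H465.h D (H465.int D (B a)) :=
    Finset.sum_pos' (fun i _ => hh0 _) ⟨a, Finset.mem_univ _, hG _ ha⟩
  have e5 : 0 ≤ ∑ b, H465.h D (univ \ cm D (U b \ {b})) :=
    Finset.sum_nonneg (fun i _ => hh0 _)
  linarith

end Vale.Agent.P038.H402
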