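import Vale.Agent.P038.H402.Sq

/-! P038, helper402: block D (`StKey`). -/

namespace Vale.Agent.P038.H402

open Finset H465
attribute [local instance] Classical.propDecidable

variable {V : Type} [Fintype V]

theorem mem_cl {D : V → V → Prop} {S : Finset V} {u : V} : u ∈ cl D S ↔ ∃ x ∈ S, R D x u := by
  simp [cl]

theorem mem_int {D : V → V → Prop} {S : Finset V} {u : V} :
    u ∈ H465.int D S ↔ ∀ y, R D u y → y ∈ S := by
  simp [H465.int]

theorem mem_er {D : V → V → Prop} {S : Finset V} {u : V} :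
    u ∈ er D S ↔ ∀ y, R D y u → y ∈ S := by
  simp [er]

theorem mem_cm {D : V → V → Prop} {S : Finset V} {u : V} : u ∈ cm D S ↔ ∃ y ∈ S, R D u y := by
  simp [cm]

theorem mem_cl_B {D : V → V → Prop} {B : V → Finset V} {a u : V} :
    u ∈ cl D (B a) ↔ EB D B a u := by
  rw [mem_cl]
  exact ⟨fun ⟨x, h1, h2⟩ => ⟨x, h2, h1⟩, fun ⟨x, h1, h2⟩ => ⟨x, h2, h1⟩⟩

/-- (H1), induction form -/
theorem h1_aux (D : V → V → Prop) (B U : V → Finset V) (hO3 : O3 D B U) (Z : Finset V) :
    ∀ S : Finset V, (∀ a' ∈ Z, ∀ x ∈ S, a' ∈ U x) →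
      (S.filter (fun x => ∃ a' ∈ Z, x ∉ B a')).card ≤
        ((cl D S).filter (fun u => ∃ a' ∈ Z, u ∉ cl D (B a'))).card := by
  classical
  induction Z using Finset.induction_on with
  | empty => intro S _; simp
  | insert a0 Z ha0 ih =>
    intro S hS
    have i1 := ih S (fun a' ha' x hx => hS a' (Finset.mem_insert_of_mem ha') x hx)
    set S0 := S.filter (fun x => ∀ a' ∈ Z, x ∈ B a') with hS0
    have i2 := hO3 a0 S0 (fun x hx => hS a0 (Finset.mem_insert_self _ _) x (Finset.mem_filter.1 hx).1)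
    have e1 : (S.filter (fun x => ∃ a' ∈ insert a0 Z, x ∉ B a')) ⊆
        (S.filter (fun x => ∃ a' ∈ Z, x ∉ B a')) ∪ (S0 \ B a0) := by
      intro x hx
      rw [Finset.mem_filter] at hx
      by_cases h : ∃ a' ∈ Z, x ∉ B a'
      · exact Finset.mem_union_left _ (Finset.mem_filter.2 ⟨hx.1, h⟩)
      · apply Finset.mem_union_right
        push Not at h
        obtain ⟨a', ha', hxa⟩ := hx.2
        rw [Finset.mem_insert] at ha'
        rcases ha' with rfl | ha'
        · exact Finset.mem_sdiff.2 ⟨Finset.mem_filter.2 ⟨hx.1, h⟩, hxa⟩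
        · exact absurd (h a' ha') hxa
    have e2 : ((cl D S).filter (fun u => ∃ a' ∈ Z, u ∉ cl D (B a'))) ∪ (cl D S0 \ cl D (B a0)) ⊆
        ((cl D S).filter (fun u => ∃ a' ∈ insert a0 Z, u ∉ cl D (B a'))) := by
      intro u hu
      rw [Finset.mem_union] at hu
      rcases hu with hu | hu
      · rw [Finset.mem_filter] at hu
        obtain ⟨h1, a', ha', h2⟩ := hu
        exact Finset.mem_filter.2 ⟨h1, a', Finset.mem_insert_of_mem ha', h2⟩
      · rw [Finset.mem_sdiff, mem_cl] at hu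
        obtain ⟨⟨x, hx, hR⟩, h2⟩ := hu
        exact Finset.mem_filter.2 ⟨mem_cl.2 ⟨x, (Finset.mem_filter.1 hx).1, hR⟩, a0,
          Finset.mem_insert_self _ _, h2⟩
    have e3 : Disjoint ((cl D S).filter (fun u => ∃ a' ∈ Z, u ∉ cl D (B a')))
        (cl D S0 \ cl D (B a0)) := by
      rw [Finset.disjoint_left]
      intro u hu hu2
      rw [Finset.mem_filter] at hu
      obtain ⟨_, a', ha', h2⟩ := hu
      rw [Finset.mem_sdiff, mem_cl] at hu2
      obtain ⟨⟨x, hx, hR⟩, _⟩ := hu2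
      exact h2 (mem_cl.2 ⟨x, (Finset.mem_filter.1 hx).2 a' ha', hR⟩)
    have c1 := Finset.card_le_card e1
    have c2 := Finset.card_le_card e2
    have c3 := Finset.card_union_le (S.filter (fun x => ∃ a' ∈ Z, x ∉ B a')) (S0 \ B a0)
    rw [Finset.card_union_of_disjoint e3] at c2
    omega

/-- (H2), induction form -/
theorem h2_aux (D : V → V → Prop) (B U : V → Finset V) (hO4 : O4 D B U) (Z : Finset V) :
    ∀ S : Finset V, (∀ x ∈ Z, ∀ a ∈ S, x ∉ B a) →
      (S.filter (fun a => ∃ x ∈ Z, a ∈ U x)).card ≤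
        ((cl D S).filter (fun z => ∃ x ∈ Z, z ∈ er D (U x))).card := by
  classical
  induction Z using Finset.induction_on with
  | empty => intro S _; simp
  | insert x0 Z hx0 ih =>
    intro S hS
    have i1 := ih S (fun a' ha' x hx => hS a' (Finset.mem_insert_of_mem ha') x hx)
    set T := S.filter (fun a => ∀ x ∈ Z, a ∉ U x) with hT
    have i2 := hO4 x0 T (fun a ha => hS x0 (Finset.mem_insert_self _ _) a (Finset.mem_filter.1 ha).1)
    have e1 : (S.filter (fun a => ∃ x ∈ insert x0 Z, a ∈ U x)) ⊆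
        (S.filter (fun a => ∃ x ∈ Z, a ∈ U x)) ∪ (T ∩ U x0) := by
      intro a ha
      rw [Finset.mem_filter] at ha
      by_cases h : ∃ x ∈ Z, a ∈ U x
      · exact Finset.mem_union_left _ (Finset.mem_filter.2 ⟨ha.1, h⟩)
      · apply Finset.mem_union_right
        push Not at h
        obtain ⟨x, hx, hax⟩ := ha.2
        rw [Finset.mem_insert] at hx
        rcases hx with rfl | hx
        · exact Finset.mem_inter.2 ⟨Finset.mem_filter.2 ⟨ha.1, h⟩, hax⟩
        · exact absurd hax (h x hx)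
    have e2 : ((cl D S).filter (fun z => ∃ x ∈ Z, z ∈ er D (U x))) ∪ (cl D T ∩ er D (U x0)) ⊆
        ((cl D S).filter (fun z => ∃ x ∈ insert x0 Z, z ∈ er D (U x))) := by
      intro u hu
      rw [Finset.mem_union] at hu
      rcases hu with hu | hu
      · rw [Finset.mem_filter] at hu
        obtain ⟨h1, a', ha', h2⟩ := hu
        exact Finset.mem_filter.2 ⟨h1, a', Finset.mem_insert_of_mem ha', h2⟩
      · rw [Finset.mem_inter, mem_cl] at hu
        obtain ⟨⟨x, hx, hR⟩, h2⟩ := hu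
        exact Finset.mem_filter.2 ⟨mem_cl.2 ⟨x, (Finset.mem_filter.1 hx).1, hR⟩, x0,
          Finset.mem_insert_self _ _, h2⟩
    have e3 : Disjoint ((cl D S).filter (fun z => ∃ x ∈ Z, z ∈ er D (U x)))
        (cl D T ∩ er D (U x0)) := by
      rw [Finset.disjoint_left]
      intro u hu hu2
      rw [Finset.mem_filter] at hu
      obtain ⟨_, x, hx, h2⟩ := hu
      rw [Finset.mem_inter, mem_cl] at hu2
      obtain ⟨⟨t, ht, hR⟩, _⟩ := hu2
      exact (Finset.mem_filter.1 ht).2 x hx (mem_er.1 h2 t hR)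
    have c1 := Finset.card_le_card e1
    have c2 := Finset.card_le_card e2
    have c3 := Finset.card_union_le (S.filter (fun a => ∃ x ∈ Z, a ∈ U x)) (T ∩ U x0)
    rw [Finset.card_union_of_disjoint e3] at c2
    omega

/-- block D -/
theorem key : StKey V := by
  classical
  intro D B U hF hO3 hO4
  have h := square (R D)
    (univ.filter (fun p : V × V => AU D U p.1 p.2 ∧ ¬ AB D B p.1 p.2))
    (univ.filter (fun p : V × V => EU D U p.1 p.2 ∧ ¬ EB D B p.1 p.2))
    (univ.filter (fun p : V × V => p.1 ∈ U p.2 ∧ ¬ p.2 ∈ B p.1))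
    (univ.filter (fun p : V × V => PP D U p.1 p.2 ∧ ¬ QQ D B p.1 p.2)) ?_ ?_ ?_
  · unfold cnt
    convert h
  · intro a x a' u hA hE h1 h2
    simp only [Finset.mem_filter, Finset.mem_univ, true_and] at hA hE ⊢
    refine ⟨⟨hA.1 a' h1, fun hB => hE.2 ⟨x, h2, hB⟩⟩, ⟨x, h2, hA.1⟩, fun hQ => hE.2 (hQ a' h1)⟩
  · intro a S hS
    simp only [Finset.mem_filter, Finset.mem_univ, true_and] at hS ⊢
    have h1 := h1_aux D B U hO3 (univ.filter (fun a' => R D a' a)) S (by
      intro a' ha' x hx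
      exact (hS x hx).1 a' (Finset.mem_filter.1 ha').2)
    refine le_trans (le_of_eq ?_) (h1.trans (Finset.card_le_card ?_))
    · congr 1
      refine (Finset.filter_true_of_mem ?_).symm
      intro x hx
      have := (hS x hx).2
      unfold AB at this
      push Not at this
      obtain ⟨a', ha', hxa⟩ := this
      exact ⟨a', Finset.mem_filter.2 ⟨Finset.mem_univ _, ha'⟩, hxa⟩
    intro u hu
    rw [Finset.mem_filter, mem_cl] at hu
    obtain ⟨⟨x, hx, hR⟩, a', ha', hu2⟩ := hu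
    rw [Finset.mem_filter]
    refine ⟨Finset.mem_univ _, ⟨⟨x, hR, (hS x hx).1⟩, fun hQ => hu2 ?_⟩, x, hx, hR⟩
    exact mem_cl_B.2 (hQ a' (Finset.mem_filter.1 ha').2)
  · intro u S hS
    simp only [Finset.mem_filter, Finset.mem_univ, true_and] at hS ⊢
    have h1 := h2_aux D B U hO4 (univ.filter (fun x => R D x u)) S (by
      intro x hx a ha hxB
      exact (hS a ha).2 ⟨x, (Finset.mem_filter.1 hx).2, hxB⟩)
    refine le_trans (le_of_eq ?_) (h1.trans (Finset.card_le_card ?_))
    · congr 1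
      refine (Finset.filter_true_of_mem ?_).symm
      intro a ha
      obtain ⟨x, hx, hU⟩ := (hS a ha).1
      exact ⟨x, Finset.mem_filter.2 ⟨Finset.mem_univ _, hx⟩, hU⟩
    intro z hz
    rw [Finset.mem_filter, mem_cl] at hz
    obtain ⟨⟨a', ha', hR⟩, x, hx, hz2⟩ := hz
    rw [Finset.mem_filter]
    refine ⟨Finset.mem_univ _, ⟨⟨x, (Finset.mem_filter.1 hx).2, ?_⟩, fun hQ => ?_⟩, a', ha', hR⟩
    · intro z' hz'
      exact mem_er.1 hz2 z' hz'
    · exact (hS a' ha').2 (hQ a' hR)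

end Vale.Agent.P038.H402
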