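import Vale.Agent.P038.H402.Key

/-! P038, helper402: block E (`StRot`). -/

namespace Vale.Agent.P038.H402

open Finset H465
attribute [local instance] Classical.propDecidable

variable {V : Type} [Fintype V]

theorem cnt_mono {r s : V → V → Prop} (h : ∀ a u, r a u → s a u) : cnt r ≤ cnt s := by
  unfold cnt
  apply Finset.card_le_card
  intro p hp
  simp only [Finset.mem_filter, Finset.mem_univ, true_and] at hp ⊢
  exact h _ _ hp

theorem cnt_split (r s : V → V → Prop) :
    cnt r = cnt (fun a u => r a u ∧ s a u) + cnt (fun a u => r a u ∧ ¬ s a u) := by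
  unfold cnt
  rw [← Finset.card_union_of_disjoint]
  · congr 1
    ext p
    simp only [Finset.mem_filter, Finset.mem_univ, true_and, Finset.mem_union]
    tauto
  · rw [Finset.disjoint_left]
    intro p hp hp2
    simp only [Finset.mem_filter, Finset.mem_univ, true_and] at hp hp2
    exact hp2.2 hp.2

theorem cnt_congr {r s : V → V → Prop} (h : ∀ a u, r a u ↔ s a u) : cnt r = cnt s :=
  le_antisymm (cnt_mono fun a u => (h a u).1) (cnt_mono fun a u => (h a u).2)

theorem cnt_sub (r s : V → V → Prop) (h : ∀ a u, s a u → r a u) :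
    cnt r = cnt s + cnt (fun a u => r a u ∧ ¬ s a u) := by
  rw [cnt_split r s]
  congr 1
  exact cnt_congr fun a u => ⟨fun hh => hh.2, fun hh => ⟨h a u hh, hh⟩⟩

/-- row sums -/
theorem sum_rows (r : V → V → Prop) (F : V → Finset V) (h : ∀ a u, u ∈ F a ↔ r a u) :
    ∑ a, ((F a).card : ℤ) = cnt r := by
  rw [cnt_rows]
  push_cast
  refine Finset.sum_congr rfl (fun a _ => ?_)
  congr 2
  ext u
  simp [h a u]

/-- column sums -/
theorem sum_cols (r : V → V → Prop) (F : V → Finset V) (h : ∀ a u, a ∈ F u ↔ r a u) :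
    ∑ u, ((F u).card : ℤ) = cnt r := by
  rw [cnt_cols]
  push_cast
  refine Finset.sum_congr rfl (fun a _ => ?_)
  congr 2
  ext u
  simp [h u a]

/-- block E -/
theorem rot : StRot V := by
  classical
  intro D B U hOri hF hkey
  refine ⟨fun a => univ.filter (fun u => PP D U a u ∧ QQ D B a u),
    fun u => univ.filter (fun a => PP D U a u ∨ (QQ D B a u ∧ ¬ D u a)), ⟨?_, ?_, ?_⟩, ?_⟩
  · intro a x hR
    rw [Finset.mem_filter]
    refine ⟨Finset.mem_univ _, ⟨a, hR, fun a' ha' => hF.le a' a (hF.refl a' a ha')⟩,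
      fun a' ha' => ⟨a, hR, hF.refl a' a ha'⟩⟩
  · intro a x hx
    rw [Finset.mem_filter] at hx ⊢
    exact ⟨Finset.mem_univ _, Or.inl hx.2.1⟩
  · intro y z hyz hz
    rw [Finset.mem_filter] at hz
    rcases hz.2 with h | h
    · obtain ⟨x, hxy, hAU⟩ := h
      have h1 := hAU y (Or.inr hyz)
      rcases hxy with rfl | hxy
      · exact hF.rev x z hyz (hAU z (Or.inl rfl))
      · exact hF.rev x y hxy h1
    · exact h.2 hyz
  · have s1 := sum_rows (fun a u => PP D U a u ∧ QQ D B a u)
      (fun a => univ.filter (fun u => PP D U a u ∧ QQ D B a u)) (by intro a u; simp)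
    have s2 : (cnt (AB D B) : ℤ) ≤
        ∑ a, ((H465.int D (univ.filter (fun u => PP D U a u ∧ QQ D B a u))).card : ℤ) := by
      rw [← sum_rows (AB D B) (fun a => univ.filter (fun x => AB D B a x)) (by intro a u; simp)]
      apply Finset.sum_le_sum
      intro a _
      have : (univ.filter (fun x => AB D B a x)) ⊆
          H465.int D (univ.filter (fun u => PP D U a u ∧ QQ D B a u)) := by
        intro b hb
        rw [Finset.mem_filter] at hb
        rw [mem_int]
        intro y hy
        rw [Finset.mem_filter]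
        refine ⟨Finset.mem_univ _, ⟨b, hy, fun a' ha' => hF.le a' b (hb.2 a' ha')⟩,
          fun a' ha' => ⟨b, hy, hb.2 a' ha'⟩⟩
      exact_mod_cast Finset.card_le_card this
    have s3 : ∑ x, ((cm D (univ.filter (fun a => PP D U a x ∨ (QQ D B a x ∧ ¬ D x a)))).card : ℤ)
        ≤ cnt (EU D U) := by
      rw [← sum_cols (EU D U) (fun u => univ.filter (fun a => EU D U a u)) (by intro a u; simp)]
      apply Finset.sum_le_sum
      intro b _
      have : cm D (univ.filter (fun a => PP D U a b ∨ (QQ D B a b ∧ ¬ D b a))) ⊆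
          univ.filter (fun a => EU D U a b) := by
        intro x hx
        rw [mem_cm] at hx
        obtain ⟨y, hy, hR⟩ := hx
        rw [Finset.mem_filter] at hy ⊢
        refine ⟨Finset.mem_univ _, ?_⟩
        rcases hy.2 with h | h
        · obtain ⟨c, hc, hAU⟩ := h
          exact ⟨c, hc, hAU x hR⟩
        · obtain ⟨c, hc, hB⟩ := h.1 x hR
          exact ⟨c, hc, hF.le x c hB⟩
      exact_mod_cast Finset.card_le_card this
    have s4 : (cnt (PP D U) : ℤ) ≤
        ∑ x, ((univ.filter (fun a => PP D U a x ∨ (QQ D B a x ∧ ¬ D x a))).card : ℤ) := by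
      rw [← sum_cols (PP D U) (fun u => univ.filter (fun a => PP D U a u)) (by intro a u; simp)]
      apply Finset.sum_le_sum
      intro b _
      have : (univ.filter (fun a => PP D U a b)) ⊆
          univ.filter (fun a => PP D U a b ∨ (QQ D B a b ∧ ¬ D b a)) := by
        intro x hx
        rw [Finset.mem_filter] at hx ⊢
        exact ⟨hx.1, Or.inl hx.2⟩
      exact_mod_cast Finset.card_le_card this
    have s5 := sum_rows (EB D B) (fun a => cl D (B a)) (fun a u => mem_cl_B)
    have s6 := sum_rows (fun a x => x ∈ B a) B (fun a u => Iff.rfl)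
    have s7 := sum_cols (fun a x => a ∈ U x) U (fun a u => Iff.rfl)
    have s8 := sum_cols (AU D U) (fun x => er D (U x)) (fun a u => mem_er)
    have t1 := cnt_split (PP D U) (QQ D B)
    have t2 := cnt_sub (EU D U) (EB D B) (fun a u ⟨x, h1, h2⟩ => ⟨x, h1, hF.le a x h2⟩)
    have t3 := cnt_sub (AU D U) (AB D B) (fun a u h a' ha' => hF.le a' u (h a' ha'))
    have t4 := cnt_sub (fun a x => a ∈ U x) (fun a x => x ∈ B a) (fun a u h => hF.le a u h)
    unfold en en'
    simp only [Finset.sum_sub_distrib]
    rw [s1, s5, s6, s7, s8]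
    zify at t1 t2 t3 t4 hkey
    linarith

end Vale.Agent.P038.H402
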