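import Vale.Agent.P038.H465.Base

/-! P038, helper402: the commuting square (generic matrices) and block D of helper465's split. -/

namespace Vale.Agent.P038.H402

open Finset
attribute [local instance] Classical.propDecidable

variable {V : Type} [Fintype V]

/-- generic coefficients -/
abbrev KK (V : Type) := FractionRing (MvPolynomial (V × V) ℚ)

/-- generic coefficient attached to `(x,u)` when `R x u` -/
noncomputable def gc (R : V → V → Prop) (x u : V) : KK V :=
  if R x u then algebraMap (MvPolynomial (V × V) ℚ) (KK V) (MvPolynomial.X (x, u)) else 0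

/-- a generic square matrix with a system of distinct representatives is nonsingular -/
theorem gc_det_ne {ι : Type} [Fintype ι] [DecidableEq ι] (R : V → V → Prop) (p q : ι → V)
    (hp : Function.Injective p) (hq : Function.Injective q) (hR : ∀ i, R (p i) (q i)) :
    (Matrix.of fun i j => gc R (p j) (q i)).det ≠ 0 := by
  classical
  set M : Matrix ι ι (MvPolynomial (V × V) ℚ) :=
    Matrix.of fun i j => if R (p j) (q i) then MvPolynomial.X (p j, q i) else 0 with hM
  have h1 : (Matrix.of fun i j => gc R (p j) (q i)) =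
      (algebraMap (MvPolynomial (V × V) ℚ) (KK V)).mapMatrix M := by
    ext i j
    simp only [Matrix.of_apply, gc, hM, RingHom.mapMatrix_apply, Matrix.map_apply]
    split_ifs <;> simp
  rw [h1, ← RingHom.map_det]
  have h2 : M.det ≠ 0 := by
    intro h0
    have h3 : (MvPolynomial.eval (fun v : V × V => if ∃ i, v = (p i, q i) then (1 : ℚ) else 0)) M.det = 0 := by
      rw [h0]; simp
    rw [RingHom.map_det] at h3
    have h4 : (MvPolynomial.eval (fun v : V × V => if ∃ i, v = (p i, q i) then (1 : ℚ) else 0)).mapMatrix M = 1 := by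
      ext i j
      simp only [RingHom.mapMatrix_apply, Matrix.map_apply, hM, Matrix.of_apply]
      by_cases hij : i = j
      · subst hij
        rw [if_pos (hR i), MvPolynomial.eval_X, if_pos ⟨i, rfl⟩, Matrix.one_apply_eq]
      · rw [Matrix.one_apply_ne hij]
        split_ifs with h
        · rw [MvPolynomial.eval_X, if_neg]
          rintro ⟨k, hk⟩
          rw [Prod.mk.injEq] at hk
          exact hij ((hq hk.2).trans (hp hk.1).symm)
        · simp
    rw [h4, Matrix.det_one] at h3
    exact one_ne_zero h3
  intro h5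
  exact h2 ((IsFractionRing.injective (MvPolynomial (V × V) ℚ) (KK V)) (by rw [h5, map_zero]))

/-- one row: if Hall's condition holds for the bipartite graph `R` between `S` and `T`, then a
vector on `S` killed by the generic matrix is zero -/
theorem gc_inj (R : V → V → Prop) (S T : Finset V)
    (hall : ∀ S' ⊆ S, S'.card ≤ (T.filter (fun u => ∃ x ∈ S', R x u)).card)
    (c : V → KK V) (hc : ∀ u ∈ T, ∑ x ∈ S, gc R x u * c x = 0) : ∀ x ∈ S, c x = 0 := by
  classical
  have hH := (Finset.all_card_le_biUnion_card_iff_exists_injective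
    (fun x : S => T.filter (fun u => R x u))).1 (by
      intro s
      have h1 := hall (s.map ⟨Subtype.val, Subtype.val_injective⟩) (by
        intro x hx
        rw [Finset.mem_map] at hx
        obtain ⟨y, _, rfl⟩ := hx
        exact y.2)
      rw [Finset.card_map] at h1
      refine h1.trans (Finset.card_le_card ?_)
      intro u hu
      rw [Finset.mem_filter] at hu
      obtain ⟨huT, x, hx, hR⟩ := hu
      rw [Finset.mem_map] at hx
      obtain ⟨y, hy, rfl⟩ := hx
      rw [Finset.mem_biUnion]
      exact ⟨y, hy, Finset.mem_filter.2 ⟨huT, hR⟩⟩)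
  obtain ⟨m, hm, hmem⟩ := hH
  have hdet := gc_det_ne (ι := S) R (fun i => i.1) m Subtype.val_injective hm
    (fun i => (Finset.mem_filter.1 (hmem i)).2)
  have hz : (Matrix.of fun i j : S => gc R j.1 (m i)).mulVec (fun j : S => c j.1) = 0 := by
    ext i
    simp only [Matrix.mulVec, dotProduct, Matrix.of_apply, Pi.zero_apply]
    rw [← hc (m i) (Finset.mem_filter.1 (hmem i)).1]
    exact Finset.sum_coe_sort S (fun x => gc R x (m i) * c x)
  have h0 := Matrix.eq_zero_of_mulVec_eq_zero hdet hz
  intro x hx
  exact congrFun h0 ⟨x, hx⟩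

/-- the linear map with matrix entries `k i j` -/
noncomputable def lm {ι κ : Type} [Fintype ι] {K : Type} [Field K] (k : κ → ι → K) :
    (ι → K) →ₗ[K] (κ → K) where
  toFun c := fun i => ∑ j, k i j * c j
  map_add' a b := by
    ext i; simp [mul_add, Finset.sum_add_distrib]
  map_smul' r a := by
    ext i
    simp only [Pi.smul_apply, smul_eq_mul, RingHom.id_apply, Finset.mul_sum]
    exact Finset.sum_congr rfl (fun j _ => by ring)

/-- dimension count in a commuting square -/
theorem sq_dim {K α γ η ε : Type} [Field K] [Fintype α] [Fintype γ] [Fintype η] [Fintype ε]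
    (p : (α → K) →ₗ[K] (γ → K)) (q : (γ → K) →ₗ[K] (ε → K))
    (f : (α → K) →ₗ[K] (η → K)) (g : (η → K) →ₗ[K] (ε → K))
    (hcomm : ∀ c, q (p c) = g (f c)) (hf : Function.Injective f) (hg : Function.Surjective g) :
    Fintype.card ε + Fintype.card α ≤ Fintype.card γ + Fintype.card η := by
  have h1 := LinearMap.finrank_range_add_finrank_ker p
  have h2 := LinearMap.finrank_range_add_finrank_ker g
  have h3 : Module.finrank K (LinearMap.range p) ≤ Fintype.card γ := by
    have := Submodule.finrank_le (LinearMap.range p)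
    rwa [Module.finrank_fintype_fun_eq_card] at this
  have h4 : Module.finrank K (LinearMap.range g) = Fintype.card ε := by
    rw [LinearMap.range_eq_top.2 hg, finrank_top, Module.finrank_fintype_fun_eq_card]
  rw [Module.finrank_fintype_fun_eq_card] at h1 h2
  have h5 : Module.finrank K (LinearMap.ker p) ≤ Module.finrank K (LinearMap.ker g) := by
    have h6 : Submodule.map f (LinearMap.ker p) ≤ LinearMap.ker g := by
      rintro _ ⟨c, hc, rfl⟩
      rw [LinearMap.mem_ker, ← hcomm, (LinearMap.mem_ker.1 hc), map_zero]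
    have h7 := Submodule.finrank_mono h6
    have h8 : Module.finrank K (Submodule.map f (LinearMap.ker p)) =
        Module.finrank K (LinearMap.ker p) :=
      (LinearEquiv.finrank_eq (Submodule.equivMapOfInjective f hf (LinearMap.ker p))).symm
    omega
  omega

/-- surjectivity from a trivial left kernel -/
theorem lm_surj {ι κ : Type} [Fintype ι] [Fintype κ] {K : Type} [Field K] (k : κ → ι → K)
    (h : ∀ d : κ → K, (∀ j, ∑ i, k i j * d i = 0) → d = 0) : Function.Surjective (lm k) := by
  classical
  have h1 : Function.Injective (Matrix.of k).transpose.mulVec := by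
    intro a b hab
    have h2 : a - b = 0 := by
      apply h
      intro j
      have h3 := congrFun hab j
      simp only [Matrix.mulVec, dotProduct, Matrix.transpose_apply, Matrix.of_apply] at h3
      simp only [Pi.sub_apply, mul_sub, Finset.sum_sub_distrib]
      rw [h3, sub_self]
    exact sub_eq_zero.1 h2
  have h2 : (Matrix.of k).rank = Fintype.card κ := by
    rw [← Matrix.rank_transpose]
    have h3 := LinearMap.finrank_range_of_inj (f := (Matrix.of k).transpose.mulVecLin) h1
    rw [Module.finrank_fintype_fun_eq_card] at h3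
    exact h3
  have h3 : LinearMap.range (Matrix.of k).mulVecLin = ⊤ := by
    apply Submodule.eq_top_of_finrank_eq
    rw [Module.finrank_fintype_fun_eq_card]
    exact h2
  intro y
  obtain ⟨x, hx⟩ := LinearMap.range_eq_top.1 h3 y
  refine ⟨x, ?_⟩
  rw [← hx]
  ext i
  simp [lm, Matrix.mulVec, dotProduct]

/-- **The square lemma.** -/
theorem square (R : V → V → Prop) (A E G H : Finset (V × V))
    (hsq : ∀ a x a' u, (a, x) ∈ A → (a', u) ∈ E → R a' a → R x u → (a', x) ∈ G ∧ (a, u) ∈ H)
    (hrow : ∀ a (S : Finset V), (∀ x ∈ S, (a, x) ∈ A) →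
      S.card ≤ (univ.filter (fun u => (a, u) ∈ H ∧ ∃ x ∈ S, R x u)).card)
    (hcol : ∀ u (S : Finset V), (∀ a' ∈ S, (a', u) ∈ E) →
      S.card ≤ (univ.filter (fun a => (a, u) ∈ H ∧ ∃ a' ∈ S, R a' a)).card) :
    E.card + A.card ≤ G.card + H.card := by
  classical
  -- the four maps
  let p : (A → KK V) →ₗ[KK V] (G → KK V) :=
    lm (fun (i : G) (j : A) => if i.1.2 = j.1.2 then gc R i.1.1 j.1.1 else 0)
  let q : (G → KK V) →ₗ[KK V] (E → KK V) :=
    lm (fun (i : E) (j : G) => if i.1.1 = j.1.1 then gc R j.1.2 i.1.2 else 0)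
  let f : (A → KK V) →ₗ[KK V] (H → KK V) :=
    lm (fun (i : H) (j : A) => if i.1.1 = j.1.1 then gc R j.1.2 i.1.2 else 0)
  let g : (H → KK V) →ₗ[KK V] (E → KK V) :=
    lm (fun (i : E) (j : H) => if i.1.2 = j.1.2 then gc R i.1.1 j.1.1 else 0)
  have key := sq_dim p q f g ?_ ?_ ?_
  · simpa using key
  · intro c
    ext i
    simp only [p, q, f, g, lm, LinearMap.coe_mk, AddHom.coe_mk, Finset.mul_sum]
    rw [Finset.sum_comm]
    conv_rhs => rw [Finset.sum_comm]
    refine Finset.sum_congr rfl (fun j _ => ?_)
    -- both sides are `gc R i.1.1 j.1.1 * gc R j.1.2 i.1.2 * c j`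
    have hL : ∑ x : G, (if i.1.1 = x.1.1 then gc R x.1.2 i.1.2 else 0) *
        ((if x.1.2 = j.1.2 then gc R x.1.1 j.1.1 else 0) * c j) =
        gc R j.1.2 i.1.2 * (gc R i.1.1 j.1.1 * c j) := by
      by_cases hR : R i.1.1 j.1.1 ∧ R j.1.2 i.1.2
      · have hm := (hsq j.1.1 j.1.2 i.1.1 i.1.2 j.2 i.2 hR.1 hR.2).1
        rw [Finset.sum_eq_single (⟨(i.1.1, j.1.2), hm⟩ : G)]
        · simp
        · intro b _ hb
          by_cases h1 : i.1.1 = b.1.1
          · by_cases h2 : b.1.2 = j.1.2
            · exact absurd (Subtype.ext (Prod.ext h1.symm h2)) hb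
            · rw [if_neg h2]; ring
          · rw [if_neg h1]; ring
        · intro h; exact absurd (Finset.mem_univ _) h
      · have h0 : gc R j.1.2 i.1.2 * (gc R i.1.1 j.1.1 * c j) = 0 := by
          rw [not_and_or] at hR
          rcases hR with h | h
          · simp [gc, h]
          · simp [gc, h]
        rw [h0]
        apply Finset.sum_eq_zero
        intro b _
        by_cases h1 : i.1.1 = b.1.1
        · by_cases h2 : b.1.2 = j.1.2
          · rw [if_pos h1, if_pos h2, h2, ← h1, h0]
          · rw [if_neg h2]; ring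
        · rw [if_neg h1]; ring
    have hRr : ∑ x : H, (if i.1.2 = x.1.2 then gc R i.1.1 x.1.1 else 0) *
        ((if x.1.1 = j.1.1 then gc R j.1.2 x.1.2 else 0) * c j) =
        gc R i.1.1 j.1.1 * (gc R j.1.2 i.1.2 * c j) := by
      by_cases hR : R i.1.1 j.1.1 ∧ R j.1.2 i.1.2
      · have hm := (hsq j.1.1 j.1.2 i.1.1 i.1.2 j.2 i.2 hR.1 hR.2).2
        rw [Finset.sum_eq_single (⟨(j.1.1, i.1.2), hm⟩ : H)]
        · simp
        · intro b _ hb
          by_cases h1 : i.1.2 = b.1.2
          · by_cases h2 : b.1.1 = j.1.1
            · exact absurd (Subtype.ext (Prod.ext h2 h1.symm)) hb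
            · rw [if_neg h2]; ring
          · rw [if_neg h1]; ring
        · intro h; exact absurd (Finset.mem_univ _) h
      · have h0 : gc R i.1.1 j.1.1 * (gc R j.1.2 i.1.2 * c j) = 0 := by
          rw [not_and_or] at hR
          rcases hR with h | h
          · simp [gc, h]
          · simp [gc, h]
        rw [h0]
        apply Finset.sum_eq_zero
        intro b _
        by_cases h1 : i.1.2 = b.1.2
        · by_cases h2 : b.1.1 = j.1.1
          · rw [if_pos h1, if_pos h2, h2, ← h1, h0]
          · rw [if_neg h2]; ring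
        · rw [if_neg h1]; ring
    rw [hL, hRr]; ring
  · -- injectivity of f
    rw [← LinearMap.ker_eq_bot, LinearMap.ker_eq_bot']
    intro c hc
    ext j
    have := gc_inj R (univ.filter (fun x => (j.1.1, x) ∈ A)) (univ.filter (fun u => (j.1.1, u) ∈ H))
      (by
        intro S' hS'
        refine (hrow j.1.1 S' (fun x hx => (Finset.mem_filter.1 (hS' hx)).2)).trans
          (Finset.card_le_card ?_)
        intro u hu
        rw [Finset.mem_filter] at hu
        rw [Finset.mem_filter, Finset.mem_filter]
        exact ⟨⟨hu.1, hu.2.1⟩, hu.2.2⟩)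
      (fun x => if h : (j.1.1, x) ∈ A then c ⟨(j.1.1, x), h⟩ else 0)
      (by
        intro u hu
        have hu2 := (Finset.mem_filter.1 hu).2
        have h1 := congrFun hc ⟨(j.1.1, u), hu2⟩
        simp only [f, lm, LinearMap.coe_mk, AddHom.coe_mk, Pi.zero_apply] at h1
        rw [← h1]
        refine Finset.sum_bij_ne_zero (fun x hx _ => (⟨(j.1.1, x), (Finset.mem_filter.1 hx).2⟩ : A))
          (fun _ _ _ => Finset.mem_univ _) ?_ ?_ ?_
        · intro x hx _ y hy _ hxy
          exact (Prod.mk.inj (Subtype.mk.inj hxy)).2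
        · intro b _ hb
          by_cases hb1 : j.1.1 = b.1.1
          · refine ⟨b.1.2, Finset.mem_filter.2 ⟨Finset.mem_univ _, ?_⟩, ?_, ?_⟩
            · rw [hb1]; exact b.2
            · intro h0
              apply hb
              have hbA : (j.1.1, b.1.2) ∈ A := by rw [hb1]; exact b.2
              rw [dif_pos hbA] at h0
              rw [if_pos hb1]
              have : (⟨(j.1.1, b.1.2), hbA⟩ : A) = b := Subtype.ext (Prod.ext hb1 rfl)
              rw [this] at h0
              exact h0
            · exact Subtype.ext (Prod.ext hb1 rfl)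
          · rw [if_neg hb1, zero_mul] at hb; exact absurd rfl hb
        · intro x hx _
          have hxA := (Finset.mem_filter.1 hx).2
          rw [dif_pos hxA, if_pos rfl])
      j.1.2 (Finset.mem_filter.2 ⟨Finset.mem_univ _, j.2⟩)
    rw [dif_pos (show (j.1.1, j.1.2) ∈ A from j.2)] at this
    exact this
  · -- surjectivity of g
    apply lm_surj
    intro d hd
    ext i
    have := gc_inj (fun x y => R x y) (univ.filter (fun a' => (a', i.1.2) ∈ E))
      (univ.filter (fun a => (a, i.1.2) ∈ H))
      (by
        intro S' hS'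
        refine (hcol i.1.2 S' (fun x hx => (Finset.mem_filter.1 (hS' hx)).2)).trans
          (Finset.card_le_card ?_)
        intro u hu
        rw [Finset.mem_filter] at hu
        rw [Finset.mem_filter, Finset.mem_filter]
        exact ⟨⟨hu.1, hu.2.1⟩, hu.2.2⟩)
      (fun x => if h : (x, i.1.2) ∈ E then d ⟨(x, i.1.2), h⟩ else 0)
      (by
        intro u hu
        have hu2 := (Finset.mem_filter.1 hu).2
        have h1 := hd ⟨(u, i.1.2), hu2⟩
        rw [← h1]
        refine Finset.sum_bij_ne_zero (fun x hx _ => (⟨(x, i.1.2), (Finset.mem_filter.1 hx).2⟩ : E))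
          (fun _ _ _ => Finset.mem_univ _) ?_ ?_ ?_
        · intro x hx _ y hy _ hxy
          exact (Prod.mk.inj (Subtype.mk.inj hxy)).1
        · intro b _ hb
          by_cases hb1 : b.1.2 = i.1.2
          · refine ⟨b.1.1, Finset.mem_filter.2 ⟨Finset.mem_univ _, ?_⟩, ?_, ?_⟩
            · rw [← hb1]; exact b.2
            · intro h0
              apply hb
              have hbA : (b.1.1, i.1.2) ∈ E := by rw [← hb1]; exact b.2
              rw [dif_pos hbA] at h0
              rw [if_pos hb1]
              have : (⟨(b.1.1, i.1.2), hbA⟩ : E) = b := Subtype.ext (Prod.ext rfl hb1.symm)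
              rw [this] at h0
              exact h0
            · exact Subtype.ext (Prod.ext rfl hb1.symm)
          · rw [if_neg hb1, zero_mul] at hb; exact absurd rfl hb
        · intro x hx _
          have hxA := (Finset.mem_filter.1 hx).2
          rw [dif_pos hxA, if_pos rfl])
      i.1.1 (Finset.mem_filter.2 ⟨Finset.mem_univ _, i.2⟩)
    rw [dif_pos (show (i.1.1, i.1.2) ∈ E from i.2)] at this
    exact this

end Vale.Agent.P038.H402
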